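import Vale.Agent.P235.ST.H421.Surf
import Vale.Agent.P235.R2.H598.Clos
import Vale.Agent.P235.H105.Tw

/-!
# P235: on a class closed under gluing along edges, bounded distortion gives embeddings which are
isometric on a prescribed edge
-/

set_option linter.all false
set_option autoImplicit false

namespace Vale.Agent.P235.ST.H421

open SimpleGraph Vale.Agent.P235

/-- gluing two metrics along an edge -/
def AttStmt : Prop := ∀ {W V : Type} [Finite W] [Finite V] {H : SimpleGraph W} {G : SimpleGraph V}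
  {dH : W → W → ℝ} {dG : V → V → ℝ}, IsMet dH → Gen H dH → IsMet dG → Gen G dG →
  ∀ {x y : W} {s t : V}, H.Adj x y → G.Adj s t → dH x y = dG s t →
  ∃ (W1 : Type) (_ : Finite W1) (H1 : SimpleGraph W1) (i : W → W1) (j : V → W1)
    (d1 : W1 → W1 → ℝ), Glued H1 H G i j x y s t ∧ IsMet d1 ∧ Gen H1 d1 ∧
      (∀ a b, d1 (i a) (i b) = dH a b) ∧ (∀ u v, d1 (j u) (j v) = dG u v)

/-- closed under gluing along an edge -/
def GlueClosed (P : ∀ (V : Type), SimpleGraph V → Prop) : Prop :=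
  ∀ {V VA VB : Type} [Finite V] [Finite VA] [Finite VB] {G : SimpleGraph V} {GA : SimpleGraph VA}
    {GB : SimpleGraph VB} {iA : VA → V} {iB : VB → V} {sA tA : VA} {sB tB : VB},
    Glued G GA GB iA iB sA tA sB tB → G.Connected → P VA GA → P VB GB → P V G

theorem isMet_smul {V : Type} {d : V → V → ℝ} (h : IsMet d) {a : ℝ} (ha : 0 < a) :
    IsMet (fun x y => a * d x y) where
  self x := by show a * d x x = 0; rw [h.self, mul_zero]
  pos x y hxy := mul_pos ha (h.pos x y hxy)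
  symm x y := by show a * d x y = a * d y x; rw [h.symm]
  tri x y z := by
    show a * d x z ≤ a * d x y + a * d y z
    rw [← mul_add]
    exact mul_le_mul_of_nonneg_left (h.tri x y z) ha.le

theorem gen_smul {V : Type} {G : SimpleGraph V} {d : V → V → ℝ} (h : Gen G d) {a : ℝ}
    (ha : 0 < a) : Gen G (fun x y => a * d x y) := by
  intro f hf x y
  have h1 := h (fun v => a⁻¹ * f v) (fun u v huv => ?_) x y
  · rw [← mul_sub, abs_mul, abs_of_pos (inv_pos.2 ha)] at h1
    have h2 := mul_le_mul_of_nonneg_left h1 ha.le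
    rwa [← mul_assoc, mul_inv_cancel₀ ha.ne', one_mul] at h2
  · rw [← mul_sub, abs_mul, abs_of_pos (inv_pos.2 ha)]
    have h2 := mul_le_mul_of_nonneg_left (hf u v huv) (inv_pos.2 ha).le
    rwa [← mul_assoc, inv_mul_cancel₀ ha.ne', one_mul] at h2

/-- a copy of `G` glued on every edge of `H` -/
theorem iterate (hatt : AttStmt) {P : ∀ (V : Type), SimpleGraph V → Prop} (hP : GlueClosed P)
    {W V : Type} [Finite W] [Finite V] {H : SimpleGraph W} {G : SimpleGraph V}
    {dH : W → W → ℝ} {dG : V → V → ℝ} (mH : IsMet dH) (gH : Gen H dH) (mG : IsMet dG)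
    (gG : Gen G dG) (pH : P W H) (pG : P V G) {s t : V} (hst : G.Adj s t) (L : List H.Dart) :
    ∃ (W1 : Type) (_ : Finite W1) (H1 : SimpleGraph W1) (i : W → W1) (d1 : W1 → W1 → ℝ),
      P W1 H1 ∧ IsMet d1 ∧ Gen H1 d1 ∧ (∀ a b, H.Adj a b → H1.Adj (i a) (i b)) ∧
      (∀ a b, d1 (i a) (i b) = dH a b) ∧
      ∀ e ∈ L, ∃ j : V → W1, j s = i e.fst ∧ j t = i e.snd ∧
        ∀ u v, d1 (j u) (j v) = dH e.fst e.snd / dG s t * dG u v := by
  induction L with
  | nil =>
    exact ⟨W, inferInstance, H, id, dH, pH, mH, gH, fun _ _ h => h, fun _ _ => rfl,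
      fun e he => absurd he List.not_mem_nil⟩
  | cons e L ih =>
    obtain ⟨W1, hW1, H1, i, d1, p1, m1, g1, hadj, hiso, hcop⟩ := ih
    have h0 : 0 < dG s t := mG.pos s t hst.ne
    have h1 : 0 < dH e.fst e.snd := mH.pos _ _ e.adj.ne
    have ha : 0 < dH e.fst e.snd / dG s t := div_pos h1 h0
    obtain ⟨W2, hW2, H2, i2, j2, d2, hg, m2, g2, hi2, hj2⟩ := hatt m1 g1 (isMet_smul mG ha)
      (gen_smul gG ha) (hadj _ _ e.adj) hst (by
        show d1 (i e.fst) (i e.snd) = dH e.fst e.snd / dG s t * dG s t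
        rw [hiso]
        field_simp)
    have hc2 : H2.Connected := by
      have : Nonempty W2 := ⟨j2 s⟩
      exact ⟨g2.preconnected m2⟩
    refine ⟨W2, hW2, H2, i2 ∘ i, d2, hP hg hc2 p1 pG, m2, g2,
      fun a b hab => hg.adjA _ _ (hadj a b hab), fun a b => ?_, ?_⟩
    · show d2 (i2 (i a)) (i2 (i b)) = dH a b
      rw [hi2, hiso]
    · intro e' he'
      rcases List.mem_cons.1 he' with rfl | he'
      · exact ⟨j2, hg.hs.symm, hg.ht.symm, hj2⟩
      · obtain ⟨j, hj1, hj3, hj4⟩ := hcop e' he'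
        refine ⟨i2 ∘ j, ?_, ?_, fun u v => ?_⟩
        · show i2 (j s) = i2 (i e'.fst)
          rw [hj1]
        · show i2 (j t) = i2 (i e'.snd)
          rw [hj3]
        · show d2 (i2 (j u)) (i2 (j v)) = _
          rw [hi2, hj4]

/-- all members of the class embed with constant `c` -/
def Ok (P : ∀ (V : Type), SimpleGraph V → Prop) (c : ℝ) : Prop :=
  ∀ (V : Type) [Finite V] (G : SimpleGraph V) (d : V → V → ℝ), P V G → IsMet d → Gen G d →
    ∃ F : V → V → ℝ, IsL1 F ∧ (∀ x y, c * d x y ≤ F x y) ∧ ∀ x y, F x y ≤ d x y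

theorem Ok.mono {P : ∀ (V : Type), SimpleGraph V → Prop} {c c' : ℝ} (h : Ok P c) (hc : c' ≤ c) :
    Ok P c' := by
  intro V _ G d hP hd hG
  obtain ⟨F, h1, h2, h3⟩ := h V G d hP hd hG
  exact ⟨F, h1, fun x y => (mul_le_mul_of_nonneg_right hc (hd.nonneg x y)).trans (h2 x y), h3⟩

/-- one step -/
theorem one_step (hatt : AttStmt) {P : ∀ (V : Type), SimpleGraph V → Prop} (hP : GlueClosed P)
    {c1 c2 : ℝ} (hc1 : 0 < c1) (hc2 : 0 < c2) (h1 : ¬ Ok P c1) (h2 : Ok P c2)
    {V : Type} [Finite V] {G : SimpleGraph V} {dG : V → V → ℝ} (pG : P V G) (mG : IsMet dG)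
    (gG : Gen G dG) {s t : V} (hst : G.Adj s t) :
    ∃ F : V → V → ℝ, IsL1 F ∧ (∀ x y, c2 * dG x y ≤ F x y) ∧ (∀ x y, F x y ≤ dG x y) ∧
      c2 / c1 * dG s t ≤ F s t := by
  classical
  unfold Ok at h1
  push Not at h1
  obtain ⟨W, hW, H, dH, pH, mH, gH, hno⟩ := h1
  have finG : Finite H.Dart :=
    Finite.of_injective (fun d : H.Dart => d.toProd) fun _ _ h => Dart.ext _ _ h
  have : Fintype H.Dart := Fintype.ofFinite _
  obtain ⟨W1, hW1, H1, i, d1, p1, m1, g1, hadj, hiso, hcop⟩ :=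
    iterate hatt hP mH gH mG gG pH pG hst (Finset.univ : Finset H.Dart).toList
  obtain ⟨F, hF, hlow, hup⟩ := h2 W1 H1 d1 p1 m1 g1
  have h0 : 0 < dG s t := mG.pos s t hst.ne
  -- some edge of `H` is stretched
  have hex : ∃ e : H.Dart, c2 / c1 * dH e.fst e.snd < F (i e.fst) (i e.snd) := by
    by_contra hcon
    push Not at hcon
    have hFH : IsL1 (fun a b => F (i a) (i b)) := by
      obtain ⟨ι, hι, w, c, hw, hFc⟩ := hF
      exact ⟨ι, hι, w, fun k a => c k (i a), hw, fun a b => hFc _ _⟩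
    have ha : 0 < c2 / c1 := div_pos hc2 hc1
    have hle : ∀ a b, F (i a) (i b) ≤ c2 / c1 * dH a b := by
      intro a b
      exact IsL1.le_of_gen (gen_smul gH ha) hFH (fun u v huv => hcon ⟨(u, v), huv⟩) a b
    have hb : 0 < c1 / c2 := div_pos hc1 hc2
    obtain ⟨x, y, hxy⟩ := hno (fun a b => c1 / c2 * F (i a) (i b)) (hFH.smul hb.le) (by
      intro a b
      have h3 := mul_le_mul_of_nonneg_left (hlow (i a) (i b)) hb.le
      rw [hiso, ← mul_assoc, div_mul_cancel₀ _ hc2.ne'] at h3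
      exact h3)
    have h3 := mul_le_mul_of_nonneg_left (hle x y) hb.le
    have h4 : c1 / c2 * (c2 / c1 * dH x y) = dH x y := by field_simp
    rw [h4] at h3
    exact absurd hxy (not_lt.2 h3)
  obtain ⟨e, he⟩ := hex
  obtain ⟨j, hj1, hj2, hj3⟩ := hcop e (Finset.mem_toList.2 (Finset.mem_univ _))
  have hd : 0 < dH e.fst e.snd := mH.pos _ _ e.adj.ne
  have hlam : 0 < dG s t / dH e.fst e.snd := div_pos h0 hd
  have hFG : IsL1 (fun u v => F (j u) (j v)) := by
    obtain ⟨ι, hι, w, c, hw, hFc⟩ := hF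
    exact ⟨ι, hι, w, fun k a => c k (j a), hw, fun a b => hFc _ _⟩
  refine ⟨fun u v => dG s t / dH e.fst e.snd * F (j u) (j v), hFG.smul hlam.le, ?_, ?_, ?_⟩
  · intro u v
    have h3 := mul_le_mul_of_nonneg_left (hlow (j u) (j v)) hlam.le
    rw [hj3] at h3
    have h4 : dG s t / dH e.fst e.snd * (c2 * (dH e.fst e.snd / dG s t * dG u v)) =
        c2 * dG u v := by field_simp
    rw [h4] at h3
    exact h3
  · intro u v
    have h3 := mul_le_mul_of_nonneg_left (hup (j u) (j v)) hlam.le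
    rw [hj3] at h3
    have h4 : dG s t / dH e.fst e.snd * (dH e.fst e.snd / dG s t * dG u v) = dG u v := by
      field_simp
    rw [h4] at h3
    exact h3
  · show c2 / c1 * dG s t ≤ dG s t / dH e.fst e.snd * F (j s) (j t)
    rw [hj1, hj2]
    have h3 := mul_le_mul_of_nonneg_left he.le hlam.le
    have h4 : dG s t / dH e.fst e.snd * (c2 / c1 * dH e.fst e.snd) = c2 / c1 * dG s t := by
      field_simp
    rw [h4] at h3
    exact h3

/-- **Bounded distortion on a class closed under gluing along edges gives edge-exact embeddings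
with the same constant.** -/
theorem edgeExact_of_closed (hatt : AttStmt) {P : ∀ (V : Type), SimpleGraph V → Prop}
    (hP : GlueClosed P) {c : ℝ} (hc : 0 < c) (hK : Ok P c)
    {V : Type} [Finite V] {G : SimpleGraph V} (pG : P V G) : EdgeExact G c := by
  classical
  intro dG mG gG s t hst
  have h0 : 0 < dG s t := mG.pos s t hst.ne
  -- the best constant
  set S : Set ℝ := {c | Ok P c} with hS
  have hb : BddAbove S := by
    refine ⟨1, ?_⟩
    intro c' hc'
    obtain ⟨F, _, h1, h2⟩ := hc' V G dG pG mG gG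
    have h3 := (h1 s t).trans (h2 s t)
    by_contra h4
    push Not at h4
    nlinarith
  have hcS : c ∈ S := hK
  set cs := sSup S with hcs
  have hccs : c ≤ cs := le_csSup hb hcS
  have hcs0 : 0 < cs := lt_of_lt_of_le hc hccs
  have key : ∀ n : ℕ, ∃ F : V → V → ℝ, IsL1 F ∧ (∀ x y, F x y ≤ dG x y) ∧
      ∀ x y, (1 - 1 / ((n : ℝ) + 1)) *
        (if (x = s ∧ y = t) ∨ (x = t ∧ y = s) then dG s t else cs * dG x y) ≤ F x y := by
    intro n
    set θ : ℝ := 1 - 1 / (2 * ((n : ℝ) + 1)) with hθ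
    have hn1 : (0 : ℝ) < (n : ℝ) + 1 := by positivity
    have hx : 0 < 1 / (2 * ((n : ℝ) + 1)) := by positivity
    have hx1 : 1 / (2 * ((n : ℝ) + 1)) ≤ 1 / 2 := by
      apply div_le_div_of_nonneg_left <;> [norm_num; norm_num; linarith [Nat.cast_nonneg (α := ℝ) n]]
    have hθ0 : 0 < θ := by rw [hθ]; linarith
    have hθ1 : θ < 1 := by rw [hθ]; linarith
    have hθ2 : 1 - 1 / ((n : ℝ) + 1) ≤ θ * θ := by
      have e1 : 1 / ((n : ℝ) + 1) = 2 * (1 / (2 * ((n : ℝ) + 1))) := by field_simp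
      rw [hθ, e1]
      nlinarith [mul_pos hx hx]
    have hθ3 : 1 - 1 / ((n : ℝ) + 1) ≤ θ := by nlinarith
    obtain ⟨c2, hc2, hc2'⟩ := exists_lt_of_lt_csSup ⟨c, hcS⟩
      (show θ * cs < sSup S by rw [← hcs]; nlinarith)
    have hc2'' : c2 ≤ cs := le_csSup hb hc2
    have hc20 : 0 < c2 := lt_trans (mul_pos hθ0 hcs0) hc2'
    have hc1 : ¬ Ok P (cs / θ) := by
      intro h
      have h1 : cs / θ ≤ cs := le_csSup hb h
      rw [div_le_iff₀ hθ0] at h1
      nlinarith
    have hc10 : 0 < cs / θ := div_pos hcs0 hθ0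
    obtain ⟨F, h1, h2, h3, h4⟩ := one_step hatt hP hc10 hc20 hc1 hc2 pG mG gG hst
    refine ⟨F, h1, h3, fun x y => ?_⟩
    have hnn : 0 ≤ 1 - 1 / ((n : ℝ) + 1) := by
      have : 1 / ((n : ℝ) + 1) ≤ 1 := by
        rw [div_le_one hn1]
        linarith [Nat.cast_nonneg (α := ℝ) n]
      linarith
    have h5 : (1 - 1 / ((n : ℝ) + 1)) * dG s t ≤ F s t := by
      refine le_trans ?_ h4
      refine mul_le_mul_of_nonneg_right ?_ h0.le
      rw [le_div_iff₀ hc10]
      have e1 : (1 - 1 / ((n : ℝ) + 1)) * (cs / θ) = ((1 - 1 / ((n : ℝ) + 1)) * cs) / θ := by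
        ring
      rw [e1, div_le_iff₀ hθ0]
      nlinarith [mul_le_mul_of_nonneg_right hθ2 hcs0.le]
    split_ifs with hxy
    · rcases hxy with ⟨rfl, rfl⟩ | ⟨rfl, rfl⟩
      · exact h5
      · rw [h1.symm]
        exact h5
    · refine le_trans ?_ (h2 x y)
      have hd := mG.nonneg x y
      have e1 : (1 - 1 / ((n : ℝ) + 1)) * (cs * dG x y) = ((1 - 1 / ((n : ℝ) + 1)) * cs) * dG x y := by
        ring
      rw [e1]
      refine mul_le_mul_of_nonneg_right ?_ hd
      nlinarith [mul_le_mul_of_nonneg_right hθ3 hcs0.le]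
  obtain ⟨F, h1, h2, h3⟩ := R2.H598.isL1_limit key
  have h4 := h3 s t
  rw [if_pos (Or.inl ⟨rfl, rfl⟩)] at h4
  refine ⟨F, h1, le_antisymm (h2 s t) h4, fun x y => ?_, h2⟩
  have h5 := h3 x y
  have hd := mG.nonneg x y
  have hcs1 : cs ≤ 1 := by
    refine csSup_le ⟨c, hcS⟩ ?_
    intro c' hc'
    obtain ⟨F, _, h1, h2⟩ := hc' V G dG pG mG gG
    have h3 := (h1 s t).trans (h2 s t)
    by_contra h4
    push Not at h4
    nlinarith
  split_ifs at h5 with hxy
  · rcases hxy with ⟨rfl, rfl⟩ | ⟨rfl, rfl⟩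
    · nlinarith
    · rw [mG.symm] 
      nlinarith
  · nlinarith

end Vale.Agent.P235.ST.H421
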