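import Vale.Agent.P235.H206.SurfDefs

/-!
# P235: gluing rotation systems along an edge

If `G` is glued from `GA` and `GB` along an edge and both have rotation systems of Euler genus at
most `gA`, `gB`, then `G` has one of Euler genus at most `gA + gB`.
-/

set_option linter.all false
set_option autoImplicit false

namespace Vale.Agent.P235.ST.H421

open SimpleGraph Vale.Agent.P235

/-- `G` is glued from `GA` and `GB` along the edge `sA tA = sB tB`. -/
structure Glued {V VA VB : Type} (G : SimpleGraph V) (GA : SimpleGraph VA) (GB : SimpleGraph VB)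
    (iA : VA → V) (iB : VB → V) (sA tA : VA) (sB tB : VB) : Prop where
  injA : Function.Injective iA
  injB : Function.Injective iB
  adjA : ∀ a b, GA.Adj a b → G.Adj (iA a) (iA b)
  adjB : ∀ a b, GB.Adj a b → G.Adj (iB a) (iB b)
  adj : ∀ u v, G.Adj u v → (∃ a b, GA.Adj a b ∧ iA a = u ∧ iA b = v) ∨
    ∃ a b, GB.Adj a b ∧ iB a = u ∧ iB b = v
  cov : ∀ v, (∃ a, iA a = v) ∨ ∃ b, iB b = v
  inter : ∀ a b, iA a = iB b → (a = sA ∧ b = sB) ∨ (a = tA ∧ b = tB)
  hs : iA sA = iB sB
  ht : iA tA = iB tB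
  stA : GA.Adj sA tA
  stB : GB.Adj sB tB

/-- the darts of a subgraph -/
def dEmb {V V' : Type} {G : SimpleGraph V} {G' : SimpleGraph V'} (i : V' → V)
    (hi : Function.Injective i) (h : ∀ a b, G'.Adj a b → G.Adj (i a) (i b)) : G'.Dart ↪ G.Dart where
  toFun d := ⟨(i d.fst, i d.snd), h _ _ d.adj⟩
  inj' := by
    intro d d' hd
    have h1 : i d.fst = i d'.fst := congrArg (fun e : G.Dart => e.fst) hd
    have h2 : i d.snd = i d'.snd := congrArg (fun e : G.Dart => e.snd) hd
    exact Dart.ext _ _ (Prod.ext (hi h1) (hi h2))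

section

variable {V VA VB : Type} {G : SimpleGraph V} {GA : SimpleGraph VA} {GB : SimpleGraph VB}
  {iA : VA → V} {iB : VB → V} {sA tA : VA} {sB tB : VB}

theorem perm_pow_of_sameCycle {α : Type} [Finite α] {f : Equiv.Perm α} {x y : α}
    (h : f.SameCycle x y) : ∃ n : ℕ, (f ^ n) x = y := by
  obtain ⟨n, hn⟩ := h.exists_pow_eq''
  exact ⟨n, hn.2.2⟩

/-- everything about the glued rotation system -/
theorem surf_glue [Finite V] [Finite VA] [Finite VB]
    (H : Glued G GA GB iA iB sA tA sB tB) {gA gB : ℕ} {σA : Equiv.Perm GA.Dart}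
    {σB : Equiv.Perm GB.Dart} (hA : SurfMap gA GA σA) (hB : SurfMap gB GB σB) :
    ∃ σ : Equiv.Perm G.Dart, SurfMap (gA + gB) G σ := by
  classical
  have finG : Finite G.Dart :=
    Finite.of_injective (fun d : G.Dart => d.toProd) fun _ _ h => Dart.ext _ _ h
  have finA : Finite GA.Dart :=
    Finite.of_injective (fun d : GA.Dart => d.toProd) fun _ _ h => Dart.ext _ _ h
  have finB : Finite GB.Dart :=
    Finite.of_injective (fun d : GB.Dart => d.toProd) fun _ _ h => Dart.ext _ _ h
  set eA : GA.Dart ↪ G.Dart := dEmb iA H.injA H.adjA with heA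
  set eB : GB.Dart ↪ G.Dart := dEmb iB H.injB H.adjB with heB
  have fstA : ∀ a, (eA a).fst = iA a.fst := fun _ => rfl
  have fstB : ∀ b, (eB b).fst = iB b.fst := fun _ => rfl
  have symA : ∀ a, (eA a).symm = eA a.symm := fun a => rfl
  have symB : ∀ b, (eB b).symm = eB b.symm := fun a => rfl
  set st : GA.Dart := ⟨(sA, tA), H.stA⟩ with hst
  set st' : GB.Dart := ⟨(sB, tB), H.stB⟩ with hst'
  have est : eA st = eB st' := Dart.ext _ _ (Prod.ext H.hs H.ht)
  have ets : eA st.symm = eB st'.symm := Dart.ext _ _ (Prod.ext H.ht H.hs)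
  have hsne : sA ≠ tA := H.stA.ne
  have hsne' : sB ≠ tB := H.stB.ne
  -- common darts
  have common : ∀ a b, eA a = eB b → (a = st ∧ b = st') ∨ (a = st.symm ∧ b = st'.symm) := by
    intro a b hab
    have h1 : iA a.fst = iB b.fst := congrArg (fun e : G.Dart => e.fst) hab
    have h2 : iA a.snd = iB b.snd := congrArg (fun e : G.Dart => e.snd) hab
    have ha := a.adj.ne
    rcases H.inter _ _ h1 with ⟨e1, e2⟩ | ⟨e1, e2⟩
    · rcases H.inter _ _ h2 with ⟨e3, e4⟩ | ⟨e3, e4⟩
      · exact absurd (e1.trans e3.symm) ha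
      · exact Or.inl ⟨Dart.ext _ _ (Prod.ext e1 e3), Dart.ext _ _ (Prod.ext e2 e4)⟩
    · rcases H.inter _ _ h2 with ⟨e3, e4⟩ | ⟨e3, e4⟩
      · exact Or.inr ⟨Dart.ext _ _ (Prod.ext e1 e3), Dart.ext _ _ (Prod.ext e2 e4)⟩
      · exact absurd (e1.trans e3.symm) ha
  have notB : ∀ a, a ≠ st → a ≠ st.symm → eA a ∉ Set.range eB := by
    rintro a h1 h2 ⟨b, hb⟩
    rcases common a b hb.symm with ⟨h, _⟩ | ⟨h, _⟩
    · exact h1 h
    · exact h2 h
  have notA : ∀ b, b ≠ st' → b ≠ st'.symm → eB b ∉ Set.range eA := by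
    rintro b h1 h2 ⟨a, ha⟩
    rcases common a b ha with ⟨_, h⟩ | ⟨_, h⟩
    · exact h1 h
    · exact h2 h
  -- fst conditions
  have fst_ne_ts : ∀ a : GA.Dart, a.fst ≠ tA → a ≠ st.symm := by
    intro a h e
    exact h (by rw [e]; rfl)
  have fst_ne_st : ∀ a : GA.Dart, a.fst ≠ sA → a ≠ st := by
    intro a h e
    exact h (by rw [e])
  have fst_ne_ts' : ∀ a : GB.Dart, a.fst ≠ tB → a ≠ st'.symm := by
    intro a h e
    exact h (by rw [e]; rfl)
  have fst_ne_st' : ∀ a : GB.Dart, a.fst ≠ sB → a ≠ st' := by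
    intro a h e
    exact h (by rw [e])
  -- the two permutations
  set τA : Equiv.Perm G.Dart := σA.viaEmbedding eA with hτA
  set τB : Equiv.Perm G.Dart := σB.viaEmbedding eB with hτB
  have τA_e : ∀ a, τA (eA a) = eA (σA a) := fun a => Equiv.Perm.viaEmbedding_apply _ _ _
  have τB_e : ∀ b, τB (eB b) = eB (σB b) := fun b => Equiv.Perm.viaEmbedding_apply _ _ _
  have τA_n : ∀ d, d ∉ Set.range eA → τA d = d :=
    fun d hd => Equiv.Perm.viaEmbedding_apply_of_notMem _ _ _ hd
  have τB_n : ∀ d, d ∉ Set.range eB → τB d = d :=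
    fun d hd => Equiv.Perm.viaEmbedding_apply_of_notMem _ _ _ hd
  have τA_f : ∀ d, (τA d).fst = d.fst := by
    intro d
    by_cases hd : d ∈ Set.range eA
    · obtain ⟨a, rfl⟩ := hd
      rw [τA_e, fstA, fstA, hA.fst]
    · rw [τA_n d hd]
  have τB_f : ∀ d, (τB d).fst = d.fst := by
    intro d
    by_cases hd : d ∈ Set.range eB
    · obtain ⟨a, rfl⟩ := hd
      rw [τB_e, fstB, fstB, hB.fst]
    · rw [τB_n d hd]
  set f : G.Dart → G.Dart := fun d => if d.fst = iA tA then τA (τB d) else τB (τA d) with hf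
  have f_f : ∀ d, (f d).fst = d.fst := by
    intro d
    simp only [hf]
    split_ifs
    · rw [τA_f, τB_f]
    · rw [τB_f, τA_f]
  have f_inj : Function.Injective f := by
    intro d d' h
    have h1 : d.fst = d'.fst := by rw [← f_f d, ← f_f d', h]
    simp only [hf] at h
    by_cases h2 : d.fst = iA tA
    · rw [if_pos h2, if_pos (h1 ▸ h2)] at h
      exact τB.injective (τA.injective h)
    · rw [if_neg h2, if_neg (h1 ▸ h2)] at h
      exact τA.injective (τB.injective h)
  set σ : Equiv.Perm G.Dart := Equiv.ofBijective f (Finite.injective_iff_bijective.mp f_inj) with hσ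
  have σ_f : ∀ d, σ d = f d := fun d => rfl
  -- the rules
  have iA_ne : ∀ a, a ≠ tA → iA a ≠ iA tA := fun a h e => h (H.injA e)
  have iB_ne : ∀ b, b ≠ tB → iB b ≠ iA tA := fun b h e => h (H.injB (e.trans H.ht))
  have rA1 : ∀ c : GA.Dart, c.fst ≠ tA → σA c = st → σ (eA c) = eB (σB st') := by
    intro c h1 h2
    rw [σ_f]
    simp only [hf]
    rw [if_neg (by rw [fstA]; exact iA_ne _ h1), τA_e, h2, est, τB_e]
  have rA2 : ∀ c : GA.Dart, c.fst ≠ tA → σA c ≠ st → σ (eA c) = eA (σA c) := by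
    intro c h1 h2
    rw [σ_f]
    simp only [hf]
    rw [if_neg (by rw [fstA]; exact iA_ne _ h1), τA_e]
    exact τB_n _ (notB _ h2 (fst_ne_ts _ (by rw [hA.fst]; exact h1)))
  have rA3 : ∀ c : GA.Dart, c.fst = tA → c ≠ st.symm → σ (eA c) = eA (σA c) := by
    intro c h1 h2
    rw [σ_f]
    simp only [hf]
    rw [if_pos (by rw [fstA, h1]), τB_n _ (notB _ (fst_ne_st _ (by rw [h1]; exact hsne.symm)) h2),
      τA_e]
  have rB1 : ∀ c : GB.Dart, c.fst ≠ tB → c ≠ st' → σ (eB c) = eB (σB c) := by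
    intro c h1 h2
    rw [σ_f]
    simp only [hf]
    rw [if_neg (by rw [fstB]; exact iB_ne _ h1), τA_n _ (notA _ h2 (fst_ne_ts' _ h1)), τB_e]
  have rB2 : ∀ c : GB.Dart, c.fst = tB → σB c = st'.symm → σ (eB c) = eA (σA st.symm) := by
    intro c h1 h2
    rw [σ_f]
    simp only [hf]
    rw [if_pos (by rw [fstB, h1, H.ht]), τB_e, h2, ← ets, τA_e]
  have rB3 : ∀ c : GB.Dart, c.fst = tB → σB c ≠ st'.symm → σ (eB c) = eB (σB c) := by
    intro c h1 h2
    rw [σ_f]
    simp only [hf]
    rw [if_pos (by rw [fstB, h1, H.ht]), τB_e]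
    exact τA_n _ (notA _ (fst_ne_st' _ (by rw [hB.fst, h1]; exact hsne'.symm)) h2)
  have stepC : ∀ d : G.Dart, σ.SameCycle d (σ d) := fun d => ⟨1, by simp⟩
  -- at `s`
  have BS : ∀ (k : ℕ) (c : GB.Dart), c.fst = sB → (σB ^ k) c = st' →
      σ.SameCycle (eB c) (eB st') := by
    intro k
    induction k with
    | zero => intro c _ h; rw [pow_zero, Equiv.Perm.one_apply] at h; rw [h]
    | succ k ih =>
      intro c hc h
      by_cases h1 : c = st'
      · rw [h1]
      · have h2 := rB1 c (by rw [hc]; exact hsne') h1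
        have h3 := stepC (eB c)
        rw [h2] at h3
        refine h3.trans (ih (σB c) (by rw [hB.fst, hc]) ?_)
        rw [pow_succ, Equiv.Perm.mul_apply] at h
        exact h
  have BS' : ∀ c : GB.Dart, c.fst = sB → σ.SameCycle (eB c) (eB st') := by
    intro c hc
    obtain ⟨k, hk⟩ := perm_pow_of_sameCycle (hB.cyc c st' hc)
    exact BS k c hc hk
  have AS : ∀ (k : ℕ) (c : GA.Dart), c.fst = sA → (σA ^ k) c = st →
      σ.SameCycle (eA c) (eB st') := by
    intro k
    induction k with
    | zero => intro c _ h; rw [pow_zero, Equiv.Perm.one_apply] at h; rw [h, est]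
    | succ k ih =>
      intro c hc h
      by_cases h1 : σA c = st
      · have h2 := rA1 c (by rw [hc]; exact hsne) h1
        have h3 := stepC (eA c)
        rw [h2] at h3
        exact h3.trans (BS' _ (by rw [hB.fst]))
      · have h2 := rA2 c (by rw [hc]; exact hsne) h1
        have h3 := stepC (eA c)
        rw [h2] at h3
        refine h3.trans (ih (σA c) (by rw [hA.fst, hc]) ?_)
        rw [pow_succ, Equiv.Perm.mul_apply] at h
        exact h
  have AS' : ∀ c : GA.Dart, c.fst = sA → σ.SameCycle (eA c) (eB st') := by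
    intro c hc
    obtain ⟨k, hk⟩ := perm_pow_of_sameCycle (hA.cyc c st hc)
    exact AS k c hc hk
  -- at `t`
  have AT : ∀ (k : ℕ) (c : GA.Dart), c.fst = tA → (σA ^ k) c = st.symm →
      σ.SameCycle (eA c) (eA st.symm) := by
    intro k
    induction k with
    | zero => intro c _ h; rw [pow_zero, Equiv.Perm.one_apply] at h; rw [h]
    | succ k ih =>
      intro c hc h
      by_cases h1 : c = st.symm
      · rw [h1]
      · have h2 := rA3 c hc h1
        have h3 := stepC (eA c)
        rw [h2] at h3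
        refine h3.trans (ih (σA c) (by rw [hA.fst, hc]) ?_)
        rw [pow_succ, Equiv.Perm.mul_apply] at h
        exact h
  have AT' : ∀ c : GA.Dart, c.fst = tA → σ.SameCycle (eA c) (eA st.symm) := by
    intro c hc
    obtain ⟨k, hk⟩ := perm_pow_of_sameCycle (hA.cyc c st.symm hc)
    exact AT k c hc hk
  have BT : ∀ (k : ℕ) (c : GB.Dart), c.fst = tB → (σB ^ k) c = st'.symm →
      σ.SameCycle (eB c) (eA st.symm) := by
    intro k
    induction k with
    | zero => intro c _ h; rw [pow_zero, Equiv.Perm.one_apply] at h; rw [h, ets]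
    | succ k ih =>
      intro c hc h
      by_cases h1 : σB c = st'.symm
      · have h2 := rB2 c hc h1
        have h3 := stepC (eB c)
        rw [h2] at h3
        exact h3.trans (AT' _ (by rw [hA.fst]; rfl))
      · have h2 := rB3 c hc h1
        have h3 := stepC (eB c)
        rw [h2] at h3
        refine h3.trans (ih (σB c) (by rw [hB.fst, hc]) ?_)
        rw [pow_succ, Equiv.Perm.mul_apply] at h
        exact h
  have BT' : ∀ c : GB.Dart, c.fst = tB → σ.SameCycle (eB c) (eA st.symm) := by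
    intro c hc
    obtain ⟨k, hk⟩ := perm_pow_of_sameCycle (hB.cyc c st'.symm hc)
    exact BT k c hc hk
  -- elsewhere
  have AO : ∀ (k : ℕ) (c c' : GA.Dart), c.fst ≠ sA → c.fst ≠ tA → (σA ^ k) c = c' →
      σ.SameCycle (eA c) (eA c') := by
    intro k
    induction k with
    | zero => intro c c' _ _ h; rw [pow_zero, Equiv.Perm.one_apply] at h; rw [h]
    | succ k ih =>
      intro c c' hc hc' h
      have h2 := rA2 c hc' (fst_ne_st _ (by rw [hA.fst]; exact hc))
      have h3 := stepC (eA c)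
      rw [h2] at h3
      refine h3.trans (ih (σA c) c' (by rw [hA.fst]; exact hc) (by rw [hA.fst]; exact hc') ?_)
      rw [pow_succ, Equiv.Perm.mul_apply] at h
      exact h
  have BO : ∀ (k : ℕ) (c c' : GB.Dart), c.fst ≠ sB → c.fst ≠ tB → (σB ^ k) c = c' →
      σ.SameCycle (eB c) (eB c') := by
    intro k
    induction k with
    | zero => intro c c' _ _ h; rw [pow_zero, Equiv.Perm.one_apply] at h; rw [h]
    | succ k ih =>
      intro c c' hc hc' h
      have h2 := rB1 c hc' (fst_ne_st' _ hc)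
      have h3 := stepC (eB c)
      rw [h2] at h3
      refine h3.trans (ih (σB c) c' (by rw [hB.fst]; exact hc) (by rw [hB.fst]; exact hc') ?_)
      rw [pow_succ, Equiv.Perm.mul_apply] at h
      exact h
  -- all darts
  have covD : ∀ d : G.Dart, (∃ a, eA a = d) ∨ ∃ b, eB b = d := by
    intro d
    rcases H.adj _ _ d.adj with ⟨a, b, hab, h1, h2⟩ | ⟨a, b, hab, h1, h2⟩
    · exact Or.inl ⟨⟨(a, b), hab⟩, Dart.ext _ _ (Prod.ext h1 h2)⟩
    · exact Or.inr ⟨⟨(a, b), hab⟩, Dart.ext _ _ (Prod.ext h1 h2)⟩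
  have cycS : ∀ d : G.Dart, d.fst = iA sA → σ.SameCycle d (eB st') := by
    intro d hd
    rcases covD d with ⟨a, rfl⟩ | ⟨b, rfl⟩
    · exact AS' a (H.injA hd)
    · exact BS' b (H.injB (hd.trans H.hs))
  have cycT : ∀ d : G.Dart, d.fst = iA tA → σ.SameCycle d (eA st.symm) := by
    intro d hd
    rcases covD d with ⟨a, rfl⟩ | ⟨b, rfl⟩
    · exact AT' a (H.injA hd)
    · exact BT' b (H.injB (hd.trans H.ht))
  have cyc : ∀ d d' : G.Dart, d.fst = d'.fst → σ.SameCycle d d' := by
    intro d d' h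
    by_cases h1 : d.fst = iA sA
    · exact (cycS d h1).trans (cycS d' (h ▸ h1)).symm
    by_cases h2 : d.fst = iA tA
    · exact (cycT d h2).trans (cycT d' (h ▸ h2)).symm
    rcases covD d with ⟨a, rfl⟩ | ⟨b, rfl⟩
    · rcases covD d' with ⟨a', rfl⟩ | ⟨b', rfl⟩
      · have h3 : a.fst = a'.fst := H.injA h
        obtain ⟨k, hk⟩ := perm_pow_of_sameCycle (hA.cyc a a' h3)
        exact AO k a a' (fun e => h1 (by rw [fstA, e])) (fun e => h2 (by rw [fstA, e])) hk
      · exfalso
        rcases H.inter _ _ h with ⟨e, _⟩ | ⟨e, _⟩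
        · exact h1 (by rw [fstA, e])
        · exact h2 (by rw [fstA, e])
    · rcases covD d' with ⟨a', rfl⟩ | ⟨b', rfl⟩
      · exfalso
        rcases H.inter _ _ h.symm with ⟨_, e⟩ | ⟨_, e⟩
        · exact h1 (by rw [fstB, e, H.hs])
        · exact h2 (by rw [fstB, e, H.ht])
      · have h3 : b.fst = b'.fst := H.injB h
        obtain ⟨k, hk⟩ := perm_pow_of_sameCycle (hB.cyc b b' h3)
        exact BO k b b' (fun e => h1 (by rw [fstB, e, H.hs])) (fun e => h2 (by rw [fstB, e, H.ht]))
          hk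
  -- faces
  let FA := Quotient (Equiv.Perm.SameCycle.setoid (faceNext σA))
  let FB := Quotient (Equiv.Perm.SameCycle.setoid (faceNext σB))
  let FG := Quotient (Equiv.Perm.SameCycle.setoid (faceNext σ))
  have finFA : Finite FA := Quotient.finite _
  have finFB : Finite FB := Quotient.finite _
  have finFG : Finite FG := Quotient.finite _
  let qA : GA.Dart → FA := fun a => Quotient.mk _ a
  let qB : GB.Dart → FB := fun b => Quotient.mk _ b
  have qA_n : ∀ a, qA (σA a.symm) = qA a := fun a =>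
    (Quotient.sound (⟨1, by simp [faceNext]⟩ : (faceNext σA).SameCycle a (σA a.symm))).symm
  have qB_n : ∀ a, qB (σB a.symm) = qB a := fun a =>
    (Quotient.sound (⟨1, by simp [faceNext]⟩ : (faceNext σB).SameCycle a (σB a.symm))).symm
  let j : FB → FA ⊕ FB := fun y => if y = qB st'.symm then Sum.inl (qA st) else Sum.inr y
  let lab : G.Dart → FA ⊕ FB := fun d =>
    if h : ∃ a, a ≠ st ∧ eA a = d then Sum.inl (qA h.choose)
    else if h' : ∃ b, eB b = d then j (qB h'.choose) else Sum.inl (qA st)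
  have labA : ∀ a, a ≠ st → lab (eA a) = Sum.inl (qA a) := by
    intro a ha
    have h : ∃ a', a' ≠ st ∧ eA a' = eA a := ⟨a, ha, rfl⟩
    show (if h : ∃ a', a' ≠ st ∧ eA a' = eA a then Sum.inl (qA h.choose)
      else if h' : ∃ b, eB b = eA a then j (qB h'.choose) else Sum.inl (qA st)) = _
    rw [dif_pos h]
    have h1 := eA.injective h.choose_spec.2
    rw [h1]
  have labB : ∀ b, b ≠ st'.symm → lab (eB b) = j (qB b) := by
    intro b hb
    have h : ¬ ∃ a', a' ≠ st ∧ eA a' = eB b := by
      rintro ⟨a', h1, h2⟩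
      rcases common a' b h2 with ⟨h3, _⟩ | ⟨_, h3⟩
      · exact h1 h3
      · exact hb h3
    have h' : ∃ b', eB b' = eB b := ⟨b, rfl⟩
    show (if h : ∃ a', a' ≠ st ∧ eA a' = eB b then Sum.inl (qA h.choose)
      else if h' : ∃ b', eB b' = eB b then j (qB h'.choose) else Sum.inl (qA st)) = _
    rw [dif_neg h, dif_pos h']
    have h1 := eB.injective h'.choose_spec
    rw [h1]
  have jts : j (qB st'.symm) = Sum.inl (qA st) := if_pos rfl
  have cov2 : ∀ d : G.Dart, (∃ a, a ≠ st ∧ eA a = d) ∨ ∃ b, b ≠ st'.symm ∧ eB b = d := by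
    intro d
    rcases covD d with ⟨a, rfl⟩ | ⟨b, rfl⟩
    · by_cases ha : a = st
      · refine Or.inr ⟨st', ?_, by rw [ha, est]⟩
        exact fst_ne_ts' _ hsne'
      · exact Or.inl ⟨a, ha, rfl⟩
    · by_cases hb : b = st'.symm
      · refine Or.inl ⟨st.symm, ?_, by rw [hb, ets]⟩
        exact fst_ne_st _ hsne.symm
      · exact Or.inr ⟨b, hb, rfl⟩
  have inv : ∀ d : G.Dart, lab (faceNext σ d) = lab d := by
    intro d
    have h0 : faceNext σ d = σ d.symm := rfl
    rw [h0]
    rcases cov2 d with ⟨a, ha, rfl⟩ | ⟨b, hb, rfl⟩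
    · rw [symA, labA a ha]
      have hc : a.symm ≠ st.symm := fun e => ha (by rw [← Dart.symm_symm a, e, Dart.symm_symm])
      by_cases h1 : a.symm.fst = tA
      · rw [rA3 _ h1 hc, labA _ (fst_ne_st _ (by rw [hA.fst, h1]; exact hsne.symm)), qA_n]
      · by_cases h2 : σA a.symm = st
        · rw [rA1 _ h1 h2, labB _ (fst_ne_ts' _ (by rw [hB.fst]; exact hsne'))]
          have h3 : qB (σB st') = qB st'.symm := by
            have := qB_n st'.symm
            rwa [Dart.symm_symm] at this
          rw [h3, jts, ← h2, qA_n]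
        · rw [rA2 _ h1 h2, labA _ h2, qA_n]
    · rw [symB, labB b hb]
      have hc : b.symm ≠ st' := fun e => hb (by rw [← Dart.symm_symm b, e])
      by_cases h1 : b.symm.fst = tB
      · by_cases h2 : σB b.symm = st'.symm
        · rw [rB2 _ h1 h2, labA _ (fst_ne_st _ (by rw [hA.fst]; exact hsne.symm)), qA_n]
          have h3 : qB b = qB st'.symm := by rw [← h2, qB_n]
          rw [h3, jts]
        · rw [rB3 _ h1 h2, labB _ h2, qB_n]
      · rw [rB1 _ h1 hc, labB _ (fst_ne_ts' _ (by rw [hB.fst]; exact h1)), qB_n]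
  have invz : ∀ (n : ℤ) (d : G.Dart), lab ((faceNext σ ^ n) d) = lab d := by
    have hn : ∀ (n : ℕ) (d : G.Dart), lab ((faceNext σ ^ n) d) = lab d := by
      intro n
      induction n with
      | zero => intro d; simp
      | succ n ih => intro d; rw [pow_succ', Equiv.Perm.mul_apply, inv, ih]
    intro n d
    obtain ⟨m, rfl | rfl⟩ := n.eq_nat_or_neg
    · rw [zpow_natCast]; exact hn m d
    · have h1 := hn m ((faceNext σ ^ (-(m : ℤ))) d)
      rw [← h1, ← zpow_natCast, ← Equiv.Perm.mul_apply, ← zpow_add]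
      simp
  let L : FG → FA ⊕ FB := Quotient.lift lab (by
    rintro d d' ⟨n, hn⟩
    rw [← hn, invz])
  have surj : ∀ x : FA ⊕ FB, x ≠ Sum.inr (qB st'.symm) → ∃ y : FG, L y = x := by
    intro x hx
    rcases x with y | y
    · induction y using Quotient.inductionOn with
      | _ a =>
        by_cases ha : a = st
        · refine ⟨Quotient.mk _ (eA (σA st.symm)), ?_⟩
          show lab (eA (σA st.symm)) = _
          rw [labA _ (fst_ne_st _ (by rw [hA.fst]; exact hsne.symm)), qA_n, ha]
        · refine ⟨Quotient.mk _ (eA a), ?_⟩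
          show lab (eA a) = _
          rw [labA a ha]
    · induction y using Quotient.inductionOn with
      | _ b =>
        have h1 : qB b ≠ qB st'.symm := fun e => hx (congrArg Sum.inr e)
        have h2 : b ≠ st'.symm := fun e => h1 (by rw [e])
        refine ⟨Quotient.mk _ (eB b), ?_⟩
        show lab (eB b) = _
        rw [labB b h2]
        exact if_neg h1
  have cardF : Nat.card FA + Nat.card FB ≤ Nat.card FG + 1 := by
    have h1 : Nat.card (FA ⊕ FB) = Nat.card FA + Nat.card FB := Nat.card_sum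
    have h2 : (Set.univ : Set (FA ⊕ FB)) ⊆ insert (Sum.inr (qB st'.symm)) (Set.range L) := by
      intro x _
      by_cases hx : x = Sum.inr (qB st'.symm)
      · exact Set.mem_insert_iff.2 (Or.inl hx)
      · exact Set.mem_insert_iff.2 (Or.inr (surj x hx))
    have h3 := Set.ncard_le_ncard h2 (Set.toFinite _)
    have h4 := Set.ncard_insert_le (Sum.inr (qB st'.symm)) (Set.range L)
    rw [Set.ncard_univ] at h3
    have h5 : (Set.range L).ncard ≤ Nat.card FG := by
      rw [← Set.image_univ, ← Set.ncard_univ FG]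
      exact Set.ncard_image_le (Set.toFinite _)
    omega
  -- edges
  have cardE : Nat.card G.edgeSet + 1 ≤ Nat.card GA.edgeSet + Nat.card GB.edgeSet := by
    set EA : Set (Sym2 V) := Sym2.map iA '' GA.edgeSet with hEA
    set EB : Set (Sym2 V) := Sym2.map iB '' GB.edgeSet with hEB
    have h1 : EA.ncard = Nat.card GA.edgeSet := by
      rw [hEA, Set.ncard_image_of_injective _ (Sym2.map.injective H.injA)]
      rfl
    have h2 : EB.ncard = Nat.card GB.edgeSet := by
      rw [hEB, Set.ncard_image_of_injective _ (Sym2.map.injective H.injB)]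
      rfl
    have h3 : G.edgeSet ⊆ EA ∪ EB := by
      intro e
      induction e using Sym2.ind with
      | _ u v =>
        intro he
        rcases H.adj u v he with ⟨a, b, hab, rfl, rfl⟩ | ⟨a, b, hab, rfl, rfl⟩
        · exact Or.inl ⟨s(a, b), hab, rfl⟩
        · exact Or.inr ⟨s(a, b), hab, rfl⟩
    have h4 : (EA ∩ EB).Nonempty := by
      refine ⟨s(iA sA, iA tA), ⟨s(sA, tA), H.stA, rfl⟩, ⟨s(sB, tB), H.stB, ?_⟩⟩
      rw [H.hs, H.ht]
      rfl
    have h5 := Set.ncard_union_add_ncard_inter EA EB (Set.toFinite _) (Set.toFinite _)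
    have h6 := Set.ncard_le_ncard h3 (Set.toFinite _)
    have h7 : 0 < (EA ∩ EB).ncard := (Set.ncard_pos (Set.toFinite _)).2 h4
    have h8 : Nat.card G.edgeSet = G.edgeSet.ncard := rfl
    omega
  -- vertices
  have cardV : Nat.card VA + Nat.card VB ≤ Nat.card V + 2 := by
    have h1 : (Set.range iA).ncard = Nat.card VA := by
      rw [← Set.image_univ, Set.ncard_image_of_injective _ H.injA, Set.ncard_univ]
    have h2 : (Set.range iB).ncard = Nat.card VB := by
      rw [← Set.image_univ, Set.ncard_image_of_injective _ H.injB, Set.ncard_univ]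
    have h3 := Set.ncard_union_add_ncard_inter (Set.range iA) (Set.range iB) (Set.toFinite _)
      (Set.toFinite _)
    have h4 : (Set.range iA ∪ Set.range iB).ncard ≤ Nat.card V := by
      rw [← Set.ncard_univ]
      exact Set.ncard_le_ncard (Set.subset_univ _) (Set.toFinite _)
    have h5 : Set.range iA ∩ Set.range iB ⊆ {iA sA, iA tA} := by
      rintro _ ⟨⟨a, rfl⟩, ⟨b, hb⟩⟩
      rcases H.inter a b hb.symm with ⟨e, _⟩ | ⟨e, _⟩
      · rw [e]; exact Or.inl rfl
      · rw [e]; exact Or.inr rfl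
    have h6 := Set.ncard_le_ncard h5 (Set.toFinite _)
    have h7 : ({iA sA, iA tA} : Set V).ncard ≤ 2 := by
      refine (Set.ncard_insert_le _ _).trans ?_
      rw [Set.ncard_singleton]
    omega
  refine ⟨σ, ⟨f_f, cyc, ?_⟩⟩
  have e1 := hA.euler
  have e2 := hB.euler
  have e3 : Nat.card FA = Nat.card (Quotient (Equiv.Perm.SameCycle.setoid (faceNext σA))) := rfl
  have e4 : Nat.card FB = Nat.card (Quotient (Equiv.Perm.SameCycle.setoid (faceNext σB))) := rfl
  have e5 : Nat.card FG = Nat.card (Quotient (Equiv.Perm.SameCycle.setoid (faceNext σ))) := rfl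
  omega

end

end Vale.Agent.P235.ST.H421
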